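import Vale.Agent.Lib.P067.E.Cx
import Vale.Agent.Lib.P067.E.Final
import Vale.Agent.Lib.P067.A.Main
import Vale.Agent.Lib.P067.S.Main
import Vale.Agent.Lib.P067.B.Main
import Vale.Agent.Lib.P067.C.Main
import Vale.Agent.Lib.P067.D1.PartD

/-!
# P067: bounded-degree coboundary expanders in every dimension

The complexes are the coset complexes of finite quotients of the pro-unipotent-type group `U` of
invertible `n × n` matrices over `k[t]` that are upper unitriangular modulo `t` (`n = 2d + 1`, truncated
to dimension `d`), with respect to the stabilizers of the vertices of a chamber at infinity of the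
affine building.
-/

namespace Vale.Agent.Results.P067.CoboundaryExpanders

open Vale.P067

/-- **Bounded-degree coboundary expanders exist in every dimension.** For every `d ≥ 1` there are `D`
and `ε > 0` and a sequence of finite, pure `d`-dimensional, connected simplicial complexes `X m`, each of
degree at most `D` and each an `ε`-coboundary expander over `F_2`, whose numbers of vertices tend to
infinity. -/
theorem result (d : ℕ) (hd : 1 ≤ d) :
    ∃ (D : ℕ) (ε : ℝ), 0 < ε ∧ ∃ (V : ℕ → Type) (X : ∀ m, FinCx (V m)),
      (∀ m, (X m).Pure d ∧ (X m).Connected ∧ (X m).DegreeLE d D ∧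
        (X m).CoboundaryExpander d ε) ∧
      Filter.Tendsto (fun m => ((X m).cells 0).card) Filter.atTop Filter.atTop :=
  final_of PA.partA S.partS PB.partB partC (partD partC) d hd

end Vale.Agent.Results.P067.CoboundaryExpanders
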