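import Vale.Agent.Lib.P067.F.Cplx
import Vale.Agent.Lib.P067.F.Relabel
import Vale.Agent.Lib.P067.E.Cx
import Vale.Agent.Lib.P067.E.Final
import Vale.Agent.Lib.P067.A.Main
import Vale.Agent.Lib.P067.S.Main
import Vale.Agent.Lib.P067.B.Main
import Vale.Agent.Lib.P067.C.Main
import Vale.Agent.Lib.P067.D1.PartD

/-!
# P067: bounded-degree coboundary expanders in every dimension, in terms of Mathlib's
abstract simplicial complexes
-/

namespace Vale.Agent.Results.P067.HighDimensional

open Vale.P067 Vale.P067.Cplx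
open scoped Classical

/-- For every `d ≥ 1` there are `D < ∞`, `ε > 0` and simplicial complexes `K m` with vertex sets
`{0, …, n m - 1}`, `n m → ∞`, such that every `K m` is pure of dimension `d`, has a connected
`1`-skeleton, has at most `D` faces of dimension `d` through every vertex, and satisfies
`‖δ_i f‖_{i+1} ≥ ε min_{b ∈ B^i} ‖f - b‖_i` for all `0 ≤ i < d` and all `f`. -/
theorem result (d : ℕ) (hd : 1 ≤ d) :
    ∃ (D : ℕ) (ε : ℝ), 0 < ε ∧
      ∃ (n : ℕ → ℕ) (K : ∀ m, AbstractSimplicialComplex (Fin (n m))),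
        Filter.Tendsto n Filter.atTop Filter.atTop ∧
        ∀ m,
          (∀ σ ∈ K m, ∃ τ ∈ K m, τ.card = d + 1 ∧ σ ⊆ τ) ∧
          (SimpleGraph.fromRel fun u v : Fin (n m) => ({u, v} : Finset _) ∈ K m).Connected ∧
          (∀ v : Fin (n m), ((faces (K m) d).filter fun τ => v ∈ τ).card ≤ D) ∧
          ∀ i < d, ∀ f : Finset (Fin (n m)) → ZMod 2, ∃ b ∈ B i,
            ε * size (K m) d i (f - b) ≤ size (K m) d (i + 1) (cobd i f) := by
  obtain ⟨D, ε, hε, V, X, hX, ht⟩ :=
    final_of PA.partA S.partS PB.partB partC (partD partC) d hd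
  refine ⟨D, ε, hε, fun m => (vs (X m)).card, fun m => rel (X m), ?_, fun m => ?_⟩
  · simp only [vs_card]
    exact ht
  · obtain ⟨h1, h2, h3, h4⟩ := hX m
    exact ⟨pure_rel (X m) h1, connected_rel (X m) h1 h2, degree_rel (X m) h3,
      fun i hi f => expander_rel (X m) h4 i hi f⟩

end Vale.Agent.Results.P067.HighDimensional
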