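import Vale.Agent.Lib.P067.G.Facet
import Vale.Agent.Results.P067.HighDimensional

/-!
# P067: bounded-degree coboundary expanders in every dimension `d ≥ 3`

A finite pure `d`-dimensional complex is given by its set `T` of `d`-faces.
-/

namespace Vale.Agent.Results.P067.PureComplexes

open Vale.P067 Vale.P067.Facet

/-- For every `d ≥ 3` there are `D < ∞`, `ε > 0` and a sequence of finite connected pure
`d`-dimensional simplicial complexes `X_m`, given by their finite nonempty sets `T m` of `d`-faces (sets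
of `d + 1` natural numbers), with `|X_m(0)| → ∞`, such that every vertex lies in at most `D` of the
`d`-faces and `‖δ_i f‖_{i+1} ≥ ε ‖f - b‖_i` for some `b ∈ B^i`, for all `0 ≤ i < d` and all `f`. -/
theorem result : ∀ d : ℕ, 3 ≤ d →
    ∃ (D : ℕ) (ε : ℝ), 0 < ε ∧ ∃ T : ℕ → Finset (Finset ℕ),
      Filter.Tendsto (fun m => (faces (T m) 0).card) Filter.atTop Filter.atTop ∧
      ∀ m,
        (T m).Nonempty ∧ (∀ τ ∈ T m, τ.card = d + 1) ∧
        (∀ u v : ℕ, {u} ∈ faces (T m) 0 → {v} ∈ faces (T m) 0 →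
          Relation.ReflTransGen (fun a b : ℕ => {a, b} ∈ faces (T m) 1) u v) ∧
        (∀ v : ℕ, ((T m).filter fun τ => v ∈ τ).card ≤ D) ∧
        ∀ i < d, ∀ f : Finset ℕ → ZMod 2, ∃ b : Finset ℕ → ZMod 2, IsCoboundary i b ∧
          ε * size (T m) d i (f - b) ≤ size (T m) d (i + 1) (cobd i f) := by
  classical
  intro d hd
  obtain ⟨D, ε, hε, n, K, hn, hK⟩ := HighDimensional.result d (by omega)
  refine ⟨D, ε, hε, fun m => mapT Fin.valEmbedding (Cplx.faces (K m) d), ?_, fun m => ?_⟩
  · refine Filter.tendsto_atTop_mono (fun m => ?_) hn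
    rw [faces_mapT, card_mapT, faces_eq (K m) (hK m).1]
    exact card_faces_zero (K m)
  · obtain ⟨hp, hc, hD, hE⟩ := hK m
    refine ⟨?_, ?_, ?_, ?_, ?_⟩
    · obtain ⟨v⟩ := hc.nonempty
      obtain ⟨τ, hτ, hτc, _⟩ := hp {v} ((K m).singleton_mem v)
      refine ⟨τ.map Fin.valEmbedding, (mem_mapT _).mpr ⟨τ, ?_, rfl⟩⟩
      simp only [Cplx.faces, Finset.mem_filter, Finset.mem_univ, true_and]
      exact ⟨hτ, hτc⟩
    · intro τ' hτ'
      obtain ⟨τ, hτ, rfl⟩ := (mem_mapT _).mp hτ'
      simp only [Cplx.faces, Finset.mem_filter, Finset.mem_univ, true_and] at hτ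
      rw [Finset.card_map]
      exact hτ.2
    · exact fun u v hu hv => connected_mapT (K m) (by omega) hp hc u v hu hv
    · intro v
      by_cases hv : ∃ a : Fin (n m), (a : ℕ) = v
      · obtain ⟨a, rfl⟩ := hv
        refine le_trans (le_of_eq ?_) (hD a)
        have : ((mapT Fin.valEmbedding (Cplx.faces (K m) d)).filter fun τ => (a : ℕ) ∈ τ)
            = mapT Fin.valEmbedding ((Cplx.faces (K m) d).filter fun τ => a ∈ τ) := by
          ext τ'
          rw [Finset.mem_filter, mem_mapT, mem_mapT]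
          constructor
          · rintro ⟨⟨τ, hτ, rfl⟩, h⟩
            refine ⟨τ, Finset.mem_filter.mpr ⟨hτ, ?_⟩, rfl⟩
            obtain ⟨b, hb, hba⟩ := Finset.mem_map.mp h
            have : b = a := Fin.ext hba
            rwa [this] at hb
          · rintro ⟨τ, hτ, rfl⟩
            rw [Finset.mem_filter] at hτ
            exact ⟨⟨τ, hτ.1, rfl⟩, Finset.mem_map.mpr ⟨a, hτ.2, rfl⟩⟩
        rw [this, card_mapT]

      · rw [Finset.card_eq_zero.mpr]
        · exact Nat.zero_le _
        · rw [Finset.filter_eq_empty_iff]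
          intro τ' hτ' h
          obtain ⟨τ, _, rfl⟩ := (mem_mapT _).mp hτ'
          obtain ⟨b, _, hb⟩ := Finset.mem_map.mp h
          exact hv ⟨b, hb⟩
    · intro i hi f
      set e : Fin (n m) ↪ ℕ := Fin.valEmbedding
      obtain ⟨b, hb, hle⟩ := hE i hi (fun σ => f (σ.map e))
      obtain ⟨b', hb', hbb⟩ := exists_isCoboundary e (isCoboundary_of_mem hb)
      refine ⟨b', hb', ?_⟩
      rw [size_mapT, size_mapT, size_eq (K m) hp, size_eq (K m) hp]
      have h1 : (fun σ : Finset (Fin (n m)) => (f - b') (σ.map e))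
          = (fun σ => f (σ.map e)) - b := by
        rw [← hbb]
        rfl
      have h2 : (fun σ : Finset (Fin (n m)) => cobd i f (σ.map e))
          = Cplx.cobd i (fun σ => f (σ.map e)) := by
        funext σ
        rw [cobd_map]
        rfl
      rw [h1, h2]
      exact hle

end Vale.Agent.Results.P067.PureComplexes
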